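import Mathlib.Topology.Homotopy.Equiv
import Mathlib.Analysis.Convex.SimplicialComplex.Basic
import Vale.Agent.P216.Defs
import Vale.Agent.P216.H391.CPN

/-!
# Definitions used in the statements of Theorem A (P216)

* `CPn n` : complex projective space, realised as the space of rank one orthogonal projections
  (matrices `v vᴴ`, `v` a unit vector of `ℂ^(n+1)`);
* `powMap K d : C(CPn 1, CPn (K + 1))`, `[z : w] ↦ [z ^ d : w ^ d : 0 : … : 0]`;
* `eulerChar T` : the Euler characteristic of a finite simplicial complex.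
-/

open Set Matrix
open scoped ComplexConjugate

namespace Vale.Agent.P216

open H391

/-- Complex projective space of complex dimension `n`: the rank one orthogonal projections of
`ℂ^(n+1)`, i.e. the matrices `v vᴴ` with `v` a unit vector. -/
abbrev CPn (n : ℕ) : Type := ↥(CP (n + 1))

/-- The vector `(z ^ d, w ^ d, 0, …, 0)` attached to `(z, w)`. -/
def powVec (K d : ℕ) (v : Fin 2 → ℂ) : Fin (K + 2) → ℂ :=
  fun i => if i = 0 then v 0 ^ d else if i = 1 then v 1 ^ d else 0

theorem ns_powVec (K d : ℕ) (v : Fin 2 → ℂ) :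
    ns (powVec K d v) = (‖v 0‖ ^ 2) ^ d + (‖v 1‖ ^ 2) ^ d := by
  have h01 : (1 : Fin (K + 2)) ≠ 0 := by
    simp
  have h := Finset.sum_eq_add (s := Finset.univ) (f := fun i => ‖powVec K d v i‖ ^ 2)
    (0 : Fin (K + 2)) 1 h01.symm (fun i _ hi => by simp [powVec, hi.1, hi.2])
    (fun h => absurd (Finset.mem_univ _) h) (fun h => absurd (Finset.mem_univ _) h)
  rw [ns, h]
  simp only [powVec, if_true, h01, if_false, norm_pow]
  ring

theorem ns_powVec_pos (K d : ℕ) {v : Fin 2 → ℂ} (hv : ns v = 1) : 0 < ns (powVec K d v) := by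
  rw [ns_powVec]
  rw [ns, Fin.sum_univ_two] at hv
  rcases eq_or_lt_of_le (sq_nonneg ‖v 0‖) with h | h
  · rw [← h, zero_add] at hv
    rw [hv, one_pow]
    have := pow_nonneg (sq_nonneg ‖v 0‖) d
    linarith
  · have := pow_pos h d
    have := pow_nonneg (sq_nonneg ‖v 1‖) d
    linarith

/-- The matrix of `[z ^ d : w ^ d : 0 : … : 0]` in terms of the matrix of `[z : w]`. -/
noncomputable def powMat (K d : ℕ) (P : Mt 2) : Mt (K + 2) := fun i j =>
  (if i = 0 then (if j = 0 then P 0 0 ^ d else if j = 1 then P 0 1 ^ d else 0)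
    else if i = 1 then (if j = 0 then P 1 0 ^ d else if j = 1 then P 1 1 ^ d else 0) else 0) /
    (P 0 0 ^ d + P 1 1 ^ d)

theorem powMat_prj (K d : ℕ) (v : Fin 2 → ℂ) : powMat K d (prj v) = npr (powVec K d v) := by
  have h01 : (1 : Fin (K + 2)) ≠ 0 := by
    simp
  have hd : prj v 0 0 ^ d + prj v 1 1 ^ d = ((ns (powVec K d v) : ℝ) : ℂ) := by
    rw [ns_powVec, prj_diag, prj_diag]
    push_cast
    ring
  funext i j
  rw [powMat, npr, hd]
  congr 1
  by_cases hi : i = 0
  · subst hi
    by_cases hj : j = 0
    · subst hj; simp [powVec, prj, mul_pow]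
    · by_cases hj1 : j = 1
      · subst hj1; simp [powVec, prj, mul_pow]
      · simp [powVec, hj, hj1]
  · by_cases hi1 : i = 1
    · subst hi1
      by_cases hj : j = 0
      · subst hj; simp [powVec, prj, mul_pow]
      · by_cases hj1 : j = 1
        · subst hj1; simp [powVec, prj, mul_pow]
        · simp [powVec, hj, hj1]
    · simp [powVec, hi, hi1]

theorem powMat_mem (K d : ℕ) {P : Mt 2} (hP : P ∈ CP 2) : powMat K d P ∈ CP (K + 2) := by
  obtain ⟨v, hv, rfl⟩ := hP
  rw [powMat_prj]
  exact npr_mem (ns_powVec_pos K d hv)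

/-- The map `[z : w] ↦ [z ^ d : w ^ d : 0 : … : 0]` from `ℂP^1` to `ℂP^(K+1)`, of degree `d`. -/
noncomputable def powMap (K d : ℕ) : C(CPn 1, CPn (K + 1)) where
  toFun P := ⟨powMat K d P.1, powMat_mem K d P.2⟩
  continuous_toFun := by
    refine Continuous.subtype_mk ?_ _
    have he : ∀ a b : Fin 2, Continuous fun P : CPn 1 => P.1 a b := fun a b =>
      (continuous_apply b).comp ((continuous_apply a).comp continuous_subtype_val)
    refine continuous_pi fun i => continuous_pi fun j => ?_
    unfold powMat
    refine Continuous.div ?_ ?_ ?_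
    · have h00 : Continuous fun P : CPn 1 => P.1 0 0 ^ d := (he 0 0).pow d
      have h01 : Continuous fun P : CPn 1 => P.1 0 1 ^ d := (he 0 1).pow d
      have h10 : Continuous fun P : CPn 1 => P.1 1 0 ^ d := (he 1 0).pow d
      have h11 : Continuous fun P : CPn 1 => P.1 1 1 ^ d := (he 1 1).pow d
      by_cases hi : i = 0
      · by_cases hj : j = 0
        · simpa [hi, hj] using h00
        · by_cases hj1 : j = 1
          · simpa [hi, hj, hj1] using h01
          · simpa [hi, hj, hj1] using continuous_const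
      · by_cases hi1 : i = 1
        · by_cases hj : j = 0
          · simpa [hi, hi1, hj] using h10
          · by_cases hj1 : j = 1
            · simpa [hi, hi1, hj, hj1] using h11
            · simpa [hi, hi1, hj, hj1] using continuous_const
        · simpa [hi, hi1] using continuous_const
    · exact ((he 0 0).pow d).add ((he 1 1).pow d)
    · rintro ⟨P, v, hv, rfl⟩
      change prj v 0 0 ^ d + prj v 1 1 ^ d ≠ 0
      have hd : prj v 0 0 ^ d + prj v 1 1 ^ d = ((ns (powVec K d v) : ℝ) : ℂ) := by
        rw [ns_powVec, prj_diag, prj_diag]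
        push_cast
        ring
      rw [hd]
      exact_mod_cast (ns_powVec_pos K d hv).ne'

/-- The Euler characteristic of a finite simplicial complex: the alternating number of faces. -/
noncomputable def eulerChar {V : Type*} [AddCommGroup V] [Module ℝ V]
    (T : Geometry.SimplicialComplex ℝ V) (hT : T.faces.Finite) : ℤ :=
  ∑ s ∈ hT.toFinset, (-1) ^ (s.card - 1)

end Vale.Agent.P216
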